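import Vale.Agent.P181.SZ.Defs
import Vale.Agent.P181.H539.Cut6
import Vale.Agent.P181.H539.Upper

set_option autoImplicit false

/-!
# P181, SZ: few letters, the number of tableaux of the tail
-/

namespace Vale.Agent.P181.SZ.A436

open Vale.Agent.P181.T4 (HW ex low ex_of_lt ex_anti)
open Vale.Agent.P181.H463 (gt strips)

/-- There are no tableaux with `N` letters and more than `N` rows. -/
theorem gt_eq_zero {n : ℕ} (N : ℕ) {lam : Fin n → ℕ} (h : 0 < ex lam N) : gt n N lam = 0 := by
  induction N generalizing lam with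
  | zero =>
    rw [gt, if_neg]
    rintro rfl
    unfold ex at h
    split_ifs at h <;> simp at h
  | succ N ih =>
    rw [gt]
    apply Finset.sum_eq_zero
    intro mu hmu
    apply ih
    have hN : N + 1 < n := by
      by_contra hc
      rw [ex, dif_neg hc] at h
      exact lt_irrefl _ h
    exact lt_of_lt_of_le h (H539.mem_strips_ex hmu (by omega : N < n)).1

lemma ex_tl {m : ℕ} (lam : Fin (m + 1) → ℕ) (i : ℕ) : ex (tl lam) i = ex lam (i + 1) := by
  unfold ex
  by_cases h : i < m
  · rw [dif_pos h, dif_pos (by omega)]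
    rfl
  · rw [dif_neg h, dif_neg (by omega)]

lemma tl_anti {m : ℕ} {lam : Fin (m + 1) → ℕ} (h : Antitone lam) : Antitone (tl lam) :=
  fun _ _ hij => h (Fin.succ_le_succ_iff.2 hij)

lemma gt_cast {n n' N : ℕ} (h : n = n') (lam : Fin n → ℕ) (lam' : Fin n' → ℕ)
    (h' : ∀ i, ex lam i = ex lam' i) : gt n N lam = gt n' N lam' := by
  subst h
  have : lam = lam' := by
    funext i
    have := h' i
    rwa [ex_of_lt lam i.2, ex_of_lt lam' i.2] at this
  rw [this]

lemma ex_low {n : ℕ} (R : ℕ) (lam : Fin n → ℕ) (i : ℕ) (hR : R ≤ n) :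
    ex (low R lam) i = ex lam (R + i) := by
  by_cases h : i < n - R
  · rw [ex_of_lt _ h]
    rfl
  · rw [ex, dif_neg h, ex, dif_neg (by omega)]

/-- The tableaux of the tail of `tl lam` are those of the tail of `lam`. -/
lemma gt_low_tl {m : ℕ} (R N : ℕ) (hR : 1 ≤ R) (hRm : R ≤ m + 1) (lam : Fin (m + 1) → ℕ) :
    gt (m - (R - 1)) N (low (R - 1) (tl lam)) = gt (m + 1 - R) N (low R lam) := by
  apply gt_cast (by omega)
  intro i
  rw [ex_low _ _ _ (by omega), ex_low _ _ _ hRm, ex_tl]
  congr 1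
  omega

/-- The highest weight polynomials in `J` columns, for the rows below the first one. -/
theorem hw_le {m J R w : ℕ} {lam : Fin (m + 1) → ℕ} (hlam : Antitone lam) (hR : 1 ≤ R)
    (hRm : R ≤ m + 1) (hw : ∑ i, tl lam i = w) :
    Module.finrank ℂ (HW m (Fin J) (tl lam)) ≤ (w + 1) ^ (R * J) * gt (m + 1 - R) J (low R lam) := by
  have h1 := H539.finrank_HW_le_gt m J (tl_anti hlam)
  have h2 := H539.cut_stmt J m (R - 1) (tl lam) (by omega) (tl_anti hlam)
  rw [gt_low_tl R J hR hRm] at h2
  refine h1.trans (h2.trans (Nat.mul_le_mul_right _ ?_))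
  have h3 : ex (tl lam) 0 ≤ w := by
    unfold ex
    split_ifs with h
    · rw [← hw]
      exact Finset.single_le_sum (f := tl lam) (fun _ _ => Nat.zero_le _) (Finset.mem_univ _)
    · exact Nat.zero_le _
  calc (ex (tl lam) 0 + 1) ^ (J * (R - 1)) ≤ (w + 1) ^ (J * (R - 1)) :=
        Nat.pow_le_pow_left (by omega) _
    _ ≤ (w + 1) ^ (R * J) := Nat.pow_le_pow_right (by omega) (by
        rw [mul_comm R J]
        exact Nat.mul_le_mul_left _ (by omega))

open scoped Classical in
/-- **few letters**: at most `(w + 1) ^ (R J)` times the number of tableaux of the tail. -/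
theorem few_le (hF : FewS) {m J R w : ℕ} {lam : Fin (m + 1) → ℕ} (hlam : Antitone lam)
    (hR : 1 ≤ R) (hRm : R ≤ m + 1) (hw : ∑ i, tl lam i = w) :
    ∑ k ∈ (PT w).filter (fun k => Multiset.card k ≤ J), nn m (tl lam) k ≤
      (w + 1) ^ (R * J) * gt (m + 1 - R) J (low R lam) :=
  (hF m w J (tl lam) hw).trans (hw_le hlam hR hRm hw)

open scoped Classical in
/-- Size types with at most `J` letters do not occur for more than `J` positive rows. -/
theorem few_zero (hF : FewS) {m J w : ℕ} {lam : Fin (m + 1) → ℕ} (hlam : Antitone lam)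
    (hw : ∑ i, tl lam i = w) (h : 0 < ex lam (J + 1)) :
    ∑ k ∈ (PT w).filter (fun k => Multiset.card k ≤ J), nn m (tl lam) k = 0 := by
  have h1 := hF m w J (tl lam) hw
  have h2 := H539.finrank_HW_le_gt m J (tl_anti hlam)
  rw [gt_eq_zero J (by rw [ex_tl]; exact h)] at h2
  omega

end Vale.Agent.P181.SZ.A436
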